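import Vale.Agent.N168.Main

open MeasureTheory ProbabilityTheory Filter
open scoped NNReal Topology

namespace Vale.Agent.Results.P168.A0AnyInteraction

open Vale.Agent.N168

/-- (1) The lower bound for an arbitrary random interaction and every `K ≥ 1`; the formula and
the bound for every `N` under the convexity condition. (2) Random constraint satisfaction problems
with the convexity condition: free energy and minimal number of violated constraints.
(3) Not-all-equal constraints with i.i.d. signs (hypergraph 2-colouring, NAE-SAT) satisfy the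
condition for every `K ≥ 1`. -/
theorem result :
    (∀ (K : ℕ) (lam : ℝ≥0) (Ω : Type) [MeasurableSpace Ω] (P : Measure Ω) [IsProbabilityMeasure P]
      (θ : Ω → Fn K) (h : Ω → ℝ), 1 ≤ K → Measurable θ → Measurable h →
      Integrable θ P → Integrable h P →
      ⨅ r, phi lam (P.map θ) (P.map h) r ≤
        liminf (fun N => (pressure lam (P.map θ) (P.map h) N : EReal)) atTop ∧
      ∀ (a : Ω → ℝ) (ψ : Ω → Fn K), Measurable ψ →
        (∀ᵐ ω ∂P, 0 < a ω ∧ ∀ σ, |ψ ω σ| < 1 ∧ Real.exp (θ ω σ) = a ω * (1 - ψ ω σ)) →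
        ReplicaConvex P ψ →
        ∃ L : ℝ, ⨅ r, phi lam (P.map θ) (P.map h) r = (L : EReal) ∧
          Tendsto (pressure lam (P.map θ) (P.map h)) atTop (𝓝 L) ∧
          ∀ N, 1 ≤ N → pressure lam (P.map θ) (P.map h) N ≤ L) ∧
    (∀ (K : ℕ) (lam : ℝ≥0) (T : Type) [Fintype T] [MeasurableSpace T] [DiscreteMeasurableSpace T]
      (κ : Measure T) [IsProbabilityMeasure κ] (viol : T → (Fin K → Bool) → Prop)
      [DecidableRel viol], 1 ≤ K → ReplicaConvex κ (fun t σ => if viol t σ then 1 else 0) →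
      ∃ (p : ℝ → ℝ) (e : ℝ),
        (∀ β, 0 ≤ β →
          ⨅ r, phi lam (κ.map fun t σ => if viol t σ then -β else 0) (Measure.dirac 0) r =
            (p β : EReal) ∧
          Tendsto (pressure lam (κ.map fun t σ => if viol t σ then -β else 0) (Measure.dirac 0))
            atTop (𝓝 (p β))) ∧
        Tendsto (fun β => -p β / β) atTop (𝓝 e) ∧
        ∀ M : ℕ → ℕ, Tendsto (fun N => (M N : ℝ) / N) atTop (𝓝 (lam : ℝ)) →
          Tendsto (fun N => ∫ ω : Fin (M N) → T × (Fin K → Fin N),
            |((⨅ σ, violated viol ω σ : ℕ) : ℝ) / N - e|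
            ∂(Measure.pi fun _ => κ.prod (Measure.pi fun _ => unif N))) atTop (𝓝 0)) ∧
    ∀ (K : ℕ) (φ : Measure Bool) [IsProbabilityMeasure φ], 1 ≤ K →
      ReplicaConvex (Measure.pi fun _ : Fin K => φ) fun J σ =>
        if ∀ i j, xor (σ i) (J i) = xor (σ j) (J j) then 1 else 0 :=
  ⟨fun _ lam _ _ _ _ _ _ hK hθ hh hθi hhi => ⟨lower_rv hK lam hθ hh hθi hhi,
      fun _ _ => formula_rv hK lam hθ hh hθi hhi⟩,
    fun _ lam _ _ _ _ _ _ _ _ hK hc => Csp.csp hK hc lam,
    fun _ φ _ hK => nae_convex hK φ⟩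

end Vale.Agent.Results.P168.A0AnyInteraction
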