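import Vale.Agent.N168X.Ground

open MeasureTheory ProbabilityTheory Filter
open scoped Topology

namespace Vale.Agent.Results.P168.A0Bethe

open Vale.Agent.N168X

/-- The Mézard-Parisi formula for fixed degrees. (1) On the Bethe lattice: the random `d`-regular
`K`-uniform hypergraph. (2) For `K = 2`, on the uniform simple `d`-regular graph. (3) On the Bethe
lattice, the lower bound for an arbitrary interaction and every `K ≥ 1`, and the formula under the
convexity condition. (4) Ground states of spin glasses and antiferromagnets on the uniform simple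
`d`-regular graph. -/
theorem result :
    (∀ (K d : ℕ) (Ω : Type) [MeasurableSpace Ω] (P : Measure Ω) [IsProbabilityMeasure P]
      (θ : Ω → Fn K) (h : Ω → ℝ), 2 ≤ K → Even K → 1 ≤ d → InClass P θ h →
      ∃ L : ℝ, Tendsto (regPressure d (P.map θ) (P.map h)) atTop (𝓝 L) ∧
        ⨅ r, regPhi d (P.map θ) (P.map h) r = (L : EReal)) ∧
    (∀ (d : ℕ) (Ω : Type) [MeasurableSpace Ω] (P : Measure Ω) [IsProbabilityMeasure P]
      (θ : Ω → Fn 2) (h : Ω → ℝ), 1 ≤ d → InClass P θ h →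
      ∃ L : ℝ, Tendsto (fun N => graphMean d (P.map θ) (P.map h) N
          fun H => Real.log (∑ σ, Real.exp (H σ))) (atTop ⊓ 𝓟 {N | Even (d * N)}) (𝓝 L) ∧
        ⨅ r, regPhi d (P.map θ) (P.map h) r = (L : EReal)) ∧
    (∀ (K d : ℕ) (Ω : Type) [MeasurableSpace Ω] (P : Measure Ω) [IsProbabilityMeasure P]
      (θ : Ω → Fn K) (h : Ω → ℝ), 1 ≤ K → 1 ≤ d → Measurable θ → Measurable h →
      Integrable θ P → Integrable h P →
      ⨅ r, regPhi d (P.map θ) (P.map h) r ≤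
        liminf (fun N => (regPressure d (P.map θ) (P.map h) N : EReal)) atTop ∧
      ∀ (a : Ω → ℝ) (ψ : Ω → Fn K), Measurable ψ →
        (∀ᵐ ω ∂P, 0 < a ω ∧ ∀ σ, |ψ ω σ| < 1 ∧ Real.exp (θ ω σ) = a ω * (1 - ψ ω σ)) →
        ReplicaConvex P ψ → ∃ L : ℝ, Tendsto (regPressure d (P.map θ) (P.map h)) atTop (𝓝 L) ∧
          ⨅ r, regPhi d (P.map θ) (P.map h) r = (L : EReal)) ∧
    ∀ (d : ℕ) (Ω : Type) [MeasurableSpace Ω] (P : Measure Ω) [IsProbabilityMeasure P]
      (θ : Ω → Fn 2) (J h : Ω → ℝ), 1 ≤ d → (∀ ω σ, θ ω σ = J ω * spin (σ 0) * spin (σ 1)) →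
      Measurable J → Measurable h → Integrable J P → Integrable h P →
      (IdentDistrib J (-J) P P ∨ ∀ᵐ ω ∂P, J ω ≤ 0) →
      ∃ (p : ℝ → ℝ) (e : ℝ), (∀ β : ℝ, 0 < β →
          ⨅ r, regPhi d (P.map (β • θ)) (P.map (β • h)) r = (p β : EReal)) ∧
        Tendsto (fun β => p β / β) atTop (𝓝 e) ∧
        Tendsto (fun N => graphMean d (P.map θ) (P.map h) N fun H => ⨆ σ, H σ)
          (atTop ⊓ 𝓟 {N | Even (d * N)}) (𝓝 e) :=
  ⟨fun _ _ _ _ _ _ _ _ => reg_class,
    fun _ _ _ _ _ _ _ => graph_class, fun _ _ _ _ _ _ _ _ => reg_rv,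
    fun _ _ _ _ _ _ _ _ a b c e f g i => (ground a b c e f g i).imp fun _ =>
      Exists.imp fun _ H => ⟨fun β hβ => (H.1 β hβ).2, H.2⟩⟩

end Vale.Agent.Results.P168.A0Bethe
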